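import Vale.Agent.P333.H359.Gc.Str

set_option autoImplicit false

/-!
P333: the last steps of the greedy algorithm.
-/

namespace Vale.Agent.P333.H359.Gc

open Vale.Agent.P333
open Vale.Agent.P333.H984 (s0 s1 s2 s3 s4 s5 s6 s7 s8 s9 s10 s11 step_of free free_spec isInf isInf_iff)

theorem step9 : Greedy.Step
    [g8, g7, g5, g3, g0, s0, s1, s2, s3, h0]
    [g9, g8, g7, g5, g3, g0, s0, s1, h0] :=
  step_of s2 s3 g9
    [g8, g7, g5, g3, g0, s0, s1, h0] 121
    ((List.perm_middle
      (l₁ :=
        [g8, g7, g5, g3, g0, s0, s1])
      (a := s2)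
      (l₂ :=
        [s3, h0])).trans
      ((List.perm_middle
      (l₁ :=
        [g8, g7, g5, g3, g0, s0, s1])
      (a := s3)
      (l₂ :=
        [h0])).cons s2))
    (by decide +kernel) (by decide +kernel) (by decide +kernel) (by decide +kernel)
    (by decide +kernel) rfl

theorem step10 : Greedy.Step
    [g9, g8, g7, g5, g3, g0, s0, s1, h0]
    [g10, g9, g8, g7, g5, g3, g0, h0] :=
  step_of s0 s1 g10
    [g9, g8, g7, g5, g3, g0, h0] 107
    ((List.perm_middle
      (l₁ :=
        [g9, g8, g7, g5, g3, g0])
      (a := s0)
      (l₂ :=
        [s1, h0])).trans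
      ((List.perm_middle
      (l₁ :=
        [g9, g8, g7, g5, g3, g0])
      (a := s1)
      (l₂ :=
        [h0])).cons s0))
    (by decide +kernel) (by decide +kernel) (by decide +kernel) (by decide +kernel)
    (by decide +kernel) rfl

theorem step11 : Greedy.Step
    [g10, g9, g8, g7, g5, g3, g0, h0]
    [g11, g10, g9, g8, g5, g3, g0] :=
  step_of h0 g7 g11
    [g10, g9, g8, g5, g3, g0] 107
    ((List.perm_middle
      (l₁ :=
        [g10, g9, g8, g7, g5, g3, g0])
      (a := h0)
      (l₂ :=
        [])).trans
      ((List.perm_middle
      (l₁ :=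
        [g10, g9, g8])
      (a := g7)
      (l₂ :=
        [g5, g3, g0])).cons h0))
    (by decide +kernel) (by decide +kernel) (by decide +kernel) (by decide +kernel)
    (by decide +kernel) rfl

theorem step12 : Greedy.Step
    [g11, g10, g9, g8, g5, g3, g0]
    [g12, g11, g10, g9, g8, g5] :=
  step_of g0 g3 g12
    [g11, g10, g9, g8, g5] 30
    ((List.perm_middle
      (l₁ :=
        [g11, g10, g9, g8, g5, g3])
      (a := g0)
      (l₂ :=
        [])).trans
      ((List.perm_middle
      (l₁ :=
        [g11, g10, g9, g8, g5])
      (a := g3)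
      (l₂ :=
        [])).cons g0))
    (by decide +kernel) (by decide +kernel) (by decide +kernel) (by decide +kernel)
    (by decide +kernel) rfl

theorem step13 : Greedy.Step
    [g12, g11, g10, g9, g8, g5]
    [g13, g12, g11, g10, g5] :=
  step_of g8 g9 g13
    [g12, g11, g10, g5] 8
    ((List.perm_middle
      (l₁ :=
        [g12, g11, g10, g9])
      (a := g8)
      (l₂ :=
        [g5])).trans
      ((List.perm_middle
      (l₁ :=
        [g12, g11, g10])
      (a := g9)
      (l₂ :=
        [g5])).cons g8))
    (by decide +kernel) (by decide +kernel) (by decide +kernel) (by decide +kernel)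
    (by decide +kernel) rfl

theorem step14 : Greedy.Step
    [g13, g12, g11, g10, g5]
    [g14, g11, g10, g5] :=
  step_of g12 g13 g14
    [g11, g10, g5] 4
    ((List.perm_middle
      (l₁ :=
        [g13])
      (a := g12)
      (l₂ :=
        [g11, g10, g5])).trans
      ((List.perm_middle
      (l₁ :=
        [])
      (a := g13)
      (l₂ :=
        [g11, g10, g5])).cons g12))
    (by decide +kernel) (by decide +kernel) (by decide +kernel) (by decide +kernel)
    (by decide +kernel) rfl

theorem step15 : Greedy.Step
    [g14, g11, g10, g5]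
    [g15, g11, g5] :=
  step_of g14 g10 g15
    [g11, g5] 2
    ((List.perm_middle
      (l₁ :=
        [])
      (a := g14)
      (l₂ :=
        [g11, g10, g5])).trans
      ((List.perm_middle
      (l₁ :=
        [g11])
      (a := g10)
      (l₂ :=
        [g5])).cons g14))
    (by decide +kernel) (by decide +kernel) (by decide +kernel) (by decide +kernel)
    (by decide +kernel) rfl

theorem step16 : Greedy.Step
    [g15, g11, g5]
    [g16, g5] :=
  step_of g15 g11 g16
    [g5] 0
    ((List.perm_middle
      (l₁ :=
        [])
      (a := g15)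
      (l₂ :=
        [g11, g5])).trans
      ((List.perm_middle
      (l₁ :=
        [])
      (a := g11)
      (l₂ :=
        [g5])).cons g15))
    (by decide +kernel) (by decide +kernel) (by decide +kernel) (by decide +kernel)
    (by decide +kernel) rfl

theorem step17 : Greedy.Step
    [g16, g5]
    [g17] :=
  step_of g16 g5 g17
    [] 0
    ((List.perm_middle
      (l₁ :=
        [])
      (a := g16)
      (l₂ :=
        [g5])).trans
      ((List.perm_middle
      (l₁ :=
        [])
      (a := g5)
      (l₂ :=
        [])).cons g16))
    (by decide +kernel) (by decide +kernel) (by decide +kernel) (by decide +kernel)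
    (by decide +kernel) rfl

end Vale.Agent.P333.H359.Gc
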